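import Vale.Agent.P097.H407.Det
import Vale.Agent.P097.H407.Final

/-! # P097: statements on tables which are integrable near the boundary -/

namespace Vale.Agent.P097.H421

open Vale.Agent.P097 Vale.Agent.P097.TOP Vale.Agent.P097.H407
open Filter
open scoped Topology

/-- A smooth table with a collar, or with a leaf of rotation number `1/q` for every large `q`, has
a real-analytic boundary and is determined, among real-analytic support functions, by any arc. -/
def RegularTables : Prop :=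
  ∀ h : ℝ → ℝ, SmoothTable h →
    ((∃ η > 0, Collar h η) ∨ ∃ q₀ : ℕ, ∀ q ≥ q₀, ∃ f, RatLeaf h q f) →
      IsTable h ∧ ∀ e : ℝ → ℝ, (∀ x, AnalyticAt ℝ e x) → ∀ a b : ℝ, a < b →
        (∀ x ∈ Set.Ioo a b, h x = e x) → h = e

/-- On a line `h₀ + s g` of support functions (`g + g''` not a multiple of `h₀ + h₀''`) only
finitely many smooth tables have a collar of a given width, and only countably many have a collar or
leaves of rotation number `1/q` for all large `q`. -/
def FewOnLines : Prop :=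
  ∀ h₀ g : ℝ → ℝ, SmoothTable h₀ → (∀ x, g (x + 2 * Real.pi) = g x) →
    (¬ ∃ c : ℝ, ∀ x, g x + deriv (deriv g) x = c * (h₀ x + deriv (deriv h₀) x)) →
    (∀ η > 0, {s : ℝ | SmoothTable (fun x => h₀ x + s * g x) ∧
      Collar (fun x => h₀ x + s * g x) η}.Finite) ∧
    {s : ℝ | SmoothTable (fun x => h₀ x + s * g x) ∧
      ((∃ η > 0, Collar (fun x => h₀ x + s * g x) η) ∨
        ∃ q₀ : ℕ, ∀ q ≥ q₀, ∃ f, RatLeaf (fun x => h₀ x + s * g x) q f)}.Countable

/-- On a line `h₀ + s g` of analytic support functions (`g + g''` not a multiple of `h₀ + h₀''`):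
for each large `q` only finitely many analytic tables have a leaf of rotation number `1/q`, and only
countably many have infinitely many such leaves. -/
def AnalyticLines : Prop :=
  ∀ h₀ g : ℝ → ℝ, IsTable h₀ → (∀ x, AnalyticAt ℝ g x) →
    (∀ x, g (x + 2 * Real.pi) = g x) →
    (¬ ∃ c : ℝ, ∀ x, g x + deriv (deriv g) x = c * (h₀ x + deriv (deriv h₀) x)) →
    (∃ q₀ : ℕ, ∀ q ≥ q₀, {s : ℝ | IsTable (fun x => h₀ x + s * g x) ∧
      ∃ f, RatLeaf (fun x => h₀ x + s * g x) q f}.Finite) ∧
    {s : ℝ | IsTable (fun x => h₀ x + s * g x) ∧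
      ∀ N : ℕ, ∃ q ≥ N, ∃ f, RatLeaf (fun x => h₀ x + s * g x) q f}.Countable

/-- Analytic tables whose support function has nonnegative, rapidly decreasing cosine coefficients
have no collar, and have only finitely many of the leaves of rotation number `1/(2mN)`. -/
def CosineTables : Prop :=
  ∀ (b p q β : ℝ) (a : ℕ → ℝ) (h : ℝ → ℝ), (∀ k, 0 ≤ a k) → (∃ k, a k ≠ 0) →
    (∀ R : ℝ, Summable fun k : ℕ => a k * Real.exp (R * k)) →
    (∀ ψ, h ψ = b + p * Real.cos ψ + q * Real.sin ψ
      + ∑' k : ℕ, a k * Real.cos (((k + 2 : ℕ) : ℝ) * (ψ - β))) → IsTable h →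
      (∀ η > 0, ¬ Collar h η) ∧
      ∃ N ≥ 1, ∃ m₀ : ℕ, ∀ m ≥ m₀, ∀ f, ¬ RatLeaf h (2 * m * N) f

/-- The near-boundary Birkhoff conjecture holds locally at every ellipse, discs included. -/
def LocalAtEllipses : Prop :=
  ∀ a b φ p q : ℝ, 0 < a → 0 < b → ∀ η : ℝ, 0 < η → ∃ (k : ℕ) (κ : ℝ), 0 < κ ∧
    ∀ h : ℝ → ℝ, SmoothTable h → (Collar h η ∨ Leaves h η) →
      CkClose k κ h (ellipse a b φ p q) → IsEllipse h

/-- Uniform gap: within a bounded class of tables with a collar of one width (or with all leaves of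
small rotation number), a table which is uniformly close to any ellipse is an ellipse. -/
def UniformGap : Prop :=
  ∀ (η c : ℝ) (A : ℕ → ℝ), 0 < η → 0 < c → ∃ (k : ℕ) (κ : ℝ), 0 < κ ∧ ∀ h : ℝ → ℝ,
    SmoothTable h → (Collar h η ∨ Leaves h η) → Bdk k A c h → ∀ e : ℝ → ℝ, IsEllipse e →
      (∀ x, |h x - e x| ≤ κ) → IsEllipse h

/-- In a connected continuous family of tables with collars of locally uniform width (or with all
leaves of small rotation number), one of them an ellipse, all are ellipses. -/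
def ConnectedFamilies : Prop :=
  ∀ (X : Type) [TopologicalSpace X] [PreconnectedSpace X] (H : X → ℝ → ℝ),
    (∀ x, SmoothTable (H x)) →
    (∀ x₀, ∃ η : ℝ, 0 < η ∧ ∀ᶠ x in 𝓝 x₀, Collar (H x) η ∨ Leaves (H x) η) →
    (∀ (i : ℕ) (x₀ : X),
      TendstoUniformly (fun x => iteratedDeriv i (H x)) (iteratedDeriv i (H x₀)) (𝓝 x₀)) →
    (∃ x, IsEllipse (H x)) → ∀ x, IsEllipse (H x)

/-- Real-analytic families of tables through an ellipse, with a collar of one width (or all leaves of
small rotation number) for parameters arbitrarily near it, consist of ellipses. -/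
def AnalyticFamilies : Prop :=
  ∀ (I : Set ℝ) (H : ℝ → ℝ → ℝ) (t₀ η : ℝ), IsPreconnected I → t₀ ∈ I → 0 < η →
    (∀ t ∈ I, SmoothTable (H t)) → (∀ s, AnalyticOnNhd ℝ (fun t => H t s) I) →
    (∀ i : ℕ, TendstoUniformly (fun t => iteratedDeriv i (H t)) (iteratedDeriv i (H t₀))
      (𝓝[I] t₀)) →
    IsEllipse (H t₀) →
    (∃ᶠ t in 𝓝[I \ {t₀}] t₀, Collar (H t) η ∨ Leaves (H t) η) → ∀ t ∈ I, IsEllipse (H t)

/-- Finite determinacy: finitely many Fourier coefficients of the support function control the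
distance of two tables with a collar of one width (or with all leaves of small rotation number),
within a bounded class of tables. -/
def FinitelyDetermined : Prop :=
  ∀ (η c : ℝ) (A : ℕ → ℝ), 0 < η → 0 < c → ∃ k N : ℕ, ∀ h₁ h₂ : ℝ → ℝ,
    SmoothTable h₁ → SmoothTable h₂ → (Collar h₁ η ∨ Leaves h₁ η) →
    (Collar h₂ η ∨ Leaves h₂ η) → Bdk k A c h₁ → Bdk k A c h₂ →
    ∀ x, |h₁ x - h₂ x| ≤ ∑ m ∈ Finset.range (N + 1),
      (|∫ t in (0 : ℝ)..(2 * Real.pi), (h₁ t - h₂ t) * Real.cos (m * t)| +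
        |∫ t in (0 : ℝ)..(2 * Real.pi), (h₁ t - h₂ t) * Real.sin (m * t)|)

end Vale.Agent.P097.H421
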